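import Vale.Agent.P066.Two.Expand

/-!
The Shareshian-Wachs conjecture for natural unit interval graphs with `h(i) ≤ i + 2`.
-/

namespace Vale.Agent.Results.P066.CliqueThree

open Finset
open scoped Classical

/-- The chromatic quasisymmetric function of `G(h)` in the variables `x_0, …, x_{N-1}`: the sum
over proper colourings of `q` to the number of ascending edges times the monomial. -/
noncomputable def chromQ {n : ℕ} (h : Fin n → Fin n) (N : ℕ) :
    MvPolynomial (Fin N) (Polynomial ℤ) :=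
  ∑ f : Fin n → Fin N,
    if ∀ a b, a < b → b ≤ h a → f a ≠ f b then
      MvPolynomial.C (Polynomial.X ^
          (univ.filter fun p : Fin n × Fin n => p.1 < p.2 ∧ p.2 ≤ h p.1 ∧ f p.1 < f p.2).card) *
        ∏ a, MvPolynomial.X (f a)
    else 0

theorem result (n : ℕ) (h : Fin n → Fin n) (hmono : Monotone h) (hle : ∀ i, i ≤ h i)
    (h2 : ∀ i, (h i : ℕ) ≤ (i : ℕ) + 2) :
    ∃ c : Nat.Partition n → Polynomial ℕ, ∀ N : ℕ, chromQ h N =
      ∑ μ, MvPolynomial.C ((c μ).map (Nat.castRingHom ℤ)) *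
        MvPolynomial.esymmPart (Fin N) (Polynomial ℤ) μ := by
  obtain ⟨g, hg⟩ : ∃ g : ℕ → ℕ, g = fun a => if ha : a < n then (h ⟨a, ha⟩ : ℕ) else a :=
    ⟨_, rfl⟩
  have gval : ∀ a : Fin n, g a = (h a : ℕ) := fun a => by simp [hg]
  have gm : Monotone g := by
    intro a b hab
    simp only [hg]
    split_ifs with ha hb hb
    · exact hmono (show (⟨a, ha⟩ : Fin n) ≤ ⟨b, hb⟩ from hab)
    · have := (h ⟨a, ha⟩).isLt; omega
    · omega
    · exact hab
  have g2 : ∀ a, g a ≤ a + 2 := by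
    intro a
    simp only [hg]
    split_ifs with ha
    · exact h2 ⟨a, ha⟩
    · omega
  obtain ⟨c, hc⟩ :=
    (Vale.Agent.P066.Two.all_pos (h := g) gm g2 n).1.exists_coeff (n := n)
  refine ⟨c, fun N => ?_⟩
  rw [← hc N, Vale.Agent.P066.Two.tot, chromQ]
  refine sum_congr rfl fun f _ => ?_
  rw [Vale.Agent.P066.Two.colWt_eq]
  have e1 : (∀ a b : Fin n, a < b → b ≤ h a → f a ≠ f b) ↔
      ∀ a b : Fin n, a < b → (b : ℕ) ≤ g a → f a ≠ f b := by
    simp only [gval, Fin.le_def]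
  have e2 : Vale.Agent.P066.Two.ascents g f =
      (univ.filter fun p : Fin n × Fin n => p.1 < p.2 ∧ p.2 ≤ h p.1 ∧ f p.1 < f p.2).card := by
    simp only [Vale.Agent.P066.Two.ascents, gval, Fin.le_def]
  rw [e2, ite_mul, zero_mul]
  by_cases p : ∀ a b : Fin n, a < b → b ≤ h a → f a ≠ f b
  · rw [if_pos p, if_pos (e1.1 p), Vale.Agent.P066.Two.qv, ← map_pow]
    rfl
  · rw [if_neg p, if_neg (mt e1.2 p)]

end Vale.Agent.Results.P066.CliqueThree
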